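import Vale.Agent.Lib.P142.Main

open MeasureTheory in
/-- Brennan's conjecture for univalent functions of bounded boundary rotation: if `f` is injective
holomorphic on the unit disc and `f'(z) = c * exp (∫ log (1 - conj θ * z) d(μ - ν)(θ))` for finite
measures `μ`, `ν` on the unit circle, then `∫_D |f'|^t dA` is finite for all `-2 < t < 2/3`, and the
integral means of `|f'|^(-2)` are `O((1-r)^(-1-ε))` for every `ε > 0`, that is `β_f(-2) ≤ 1`. -/
theorem Vale.Agent.Results.P142.BoundedRotation.result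
    (f : ℂ → ℂ) (hf : DifferentiableOn ℂ f (Metric.ball 0 1))
    (hinj : Set.InjOn f (Metric.ball 0 1))
    (μ ν : Measure (Metric.sphere (0 : ℂ) 1)) [IsFiniteMeasure μ] [IsFiniteMeasure ν] (c : ℂ)
    (hrep : ∀ z ∈ Metric.ball (0 : ℂ) 1, deriv f z = c * Complex.exp
      ((∫ θ, Complex.log (1 - (starRingEnd ℂ) (θ : ℂ) * z) ∂μ) -
        ∫ θ, Complex.log (1 - (starRingEnd ℂ) (θ : ℂ) * z) ∂ν)) :
    (∀ t : ℝ, -2 < t → t < 2 / 3 →
      (∫⁻ z in Metric.ball (0 : ℂ) 1, ENNReal.ofReal (‖deriv f z‖ ^ t)) < ⊤) ∧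
    (∀ ε : ℝ, 0 < ε → ∃ C : ℝ, ∀ r : ℝ, 0 < r → r < 1 →
      (1 / (2 * Real.pi)) * (∫ θ in (-Real.pi)..Real.pi,
        ‖deriv f (r * Complex.exp (θ * Complex.I))‖ ^ (-(2 : ℝ))) ≤ C * (1 - r) ^ (-1 - ε)) :=
  ⟨fun _ h1 h2 => Vale.Agent.Lib.P142.brennan_area hf hinj hrep h1 h2,
    fun _ hε => Vale.Agent.Lib.P142.brennan_means hf hinj hrep hε⟩
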